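import Crest.Agent.X212.Tub3.Main

/-!
# Row 212, PERF (helper3): NF 0 (general position by a parallel shift), NF 1 (plumbed annuli)
-/

set_option autoImplicit false
set_option linter.unusedSectionVars false
noncomputable section
open Set Filter Topology Function Complex
open scoped ContDiff Manifold
open Crest.Agent.X212.Prf6

namespace Crest.Agent.X212.Tub3

section
variable {M : Type*} [TopologicalSpace M] [ChartedSpace ℂ M] [IsManifold IC ∞ M] [T2Space M]
  {o : Or M} {γ : ℝ → M} {A : ℂ → M}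

theorem hasDerivAt_im {g : ℝ → ℂ} {t : ℝ} (h : DifferentiableAt ℝ g t) :
    HasDerivAt (fun s => (g s).im) (deriv g t).im t :=
  imCLM.hasFDerivAt.comp_hasDerivAt t h.hasDerivAt

/-- transverse crossings are isolated -/
theorem tv_isolated (hA : An o A) {t : ℝ} (h : Tv A γ t) : ∀ᶠ s in 𝓝[≠] t, γ s ∉ core A := by
  obtain ⟨g, h1, h2, -, h4⟩ := h
  filter_upwards [(hasDerivAt_im (h1.differentiableAt (by simp))).eventually_ne (c := 0) h4,
    nhdsWithin_le_nhds h2] with s a b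
  rwa [b, hA.mem_core]

theorem tv_finite (hA : An o A) (hγ : Continuous γ) (h : ∀ t, γ t ∈ core A → Tv A γ t) {K : Set ℝ}
    (hK : IsCompact K) : {t ∈ K | γ t ∈ core A}.Finite := by
  refine (hK.inter_right (hA.isCompact_core.isClosed.preimage hγ)).finite
    (isDiscrete_iff_nhdsNE.2 fun t ht => inf_principal_eq_bot.2 ?_)
  filter_upwards [tv_isolated hA (h t ht.2)] with s hs hm using hs hm.2

/-- the lift in a transverse crossing can be taken smooth on an open set -/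
theorem tv_lift (hA : ∀ z, Pm oC o A z) (hγ : ContMDiff IR IC ∞ γ) {t : ℝ} (h : Tv A γ t) :
    ∃ (g : ℝ → ℂ) (W : Set ℝ), IsOpen W ∧ t ∈ W ∧ ContDiffOn ℝ ∞ g W ∧
      (∀ s ∈ W, γ s = A (g s)) ∧ (g t).im = 0 ∧ (deriv g t).im ≠ 0 := by
  obtain ⟨g, h1, h2, h3, h4⟩ := h
  obtain ⟨g', W, a1, a2, a3, a4, a5, -⟩ := exists_lift (hA (g t)).1 hγ h2.self_of_nhds
  obtain ⟨O, hO, hi⟩ := ld_injOn (hA (g t)).1
  have e : g' =ᶠ[𝓝 t] g := by
    filter_upwards [h2, a1.mem_nhds a2, h1.continuousAt.eventually hO,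
      (a3.contDiffAt (a1.mem_nhds a2)).continuousAt.eventually (a4 ▸ hO)] with s b1 b2 b3 b4
    exact hi b4 b3 ((a5 s b2).symm.trans b1)
  exact ⟨g', W, a1, a2, a3, a5, a4 ▸ h3, e.deriv_eq ▸ h4⟩

theorem exists_shift (hA : An o A) (hγ : ContMDiff IR IC ∞ γ) {δ : ℝ} (hδ : 0 < δ) :
    ∃ r : ℝ, |r| < δ ∧
      ∀ t, γ t ∈ core (fun z => A (z + r * I)) → Tv (fun z => A (z + r * I)) γ t := by
  let f : ℝ → ℝ := fun t => (invFun A (γ t)).im
  have key : ∀ t z, γ t = A z → ∃ g : ℝ → ℂ, ContDiffAt ℝ ∞ g t ∧ (∀ᶠ s in 𝓝 t, γ s = A (g s)) ∧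
      g t = z ∧ HasDerivAt f (deriv g t).im t := fun t z e => by
    obtain ⟨g, W, a1, a2, a3, a4, a5, -⟩ := exists_lift (hA.1 z).1 hγ e
    have d := a3.contDiffAt (a1.mem_nhds a2)
    refine ⟨g, d, eventually_of_mem (a1.mem_nhds a2) a5, a4,
      (hasDerivAt_im (d.differentiableAt (by simp))).congr_of_eventuallyEq ?_⟩
    filter_upwards [a1.mem_nhds a2] with s hs
    exact hA.im_eq ((invFun_eq ⟨_, (a5 s hs).symm⟩).trans (a5 s hs))
  have h0 : MeasureTheory.volume (f '' {t | HasDerivAt f 0 t}) = 0 :=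
    MeasureTheory.addHaar_image_eq_zero_of_det_fderivWithin_eq_zero _ (f' := fun _ => 0)
      (fun t ht => by simpa using ht.hasFDerivAt.hasFDerivWithinAt) fun _ _ => by
        simp [ContinuousLinearMap.det]
  obtain ⟨r, hr, hn⟩ : ∃ r ∈ Ioo (-δ) δ, r ∉ f '' {t | HasDerivAt f 0 t} := by
    by_contra! h
    have := MeasureTheory.measure_mono_null h h0
    simp at this
    linarith
  refine ⟨r, abs_lt.2 hr, fun t ⟨s, hs⟩ => ?_⟩
  obtain ⟨g, a1, a2, a3, a4⟩ := key t _ hs.symm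
  refine ⟨fun u => g u - r * I, a1.sub contDiffAt_const, a2.mono fun u hu => by simpa using hu,
    by simp [a3], fun h => hn ⟨t, ?_, ?_⟩⟩
  · rw [deriv_sub_const] at h
    rwa [h] at a4
  · have := hA.im_eq ((invFun_eq (f := A) ⟨_, hs⟩).trans hs.symm)
    simpa using this

variable [CompactSpace M]

theorem exists_nf {U : Set M} {n : ℕ} {t : Fin n → ℝ} (hU : IsOpen U) (hA : An o A)
    (hc : core A ⊆ U) (h : Cv γ) (hr : range γ ⊆ U) (ht : ∀ i j, ∀ m : ℤ, t i = t j + m → i = j)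
    (hT : ∀ j, Tv A γ (t j)) (hall : ∀ s, γ s ∈ core A → ∃ j, ∃ m : ℤ, s = t j + m) :
    ∃ A' B δ θ ε, Nf o U A' B n δ t θ ε ∧ (∀ s : ℝ, A' s = A s) ∧ ∀ s : ℝ, B s = γ s := by
  choose g W w1 w2 w3 w4 w5 w6 using fun j => tv_lift hA.1 h.sm (hT j)
  let θ : Fin n → ℝ := fun j => (g j (t j)).re
  have hθ : ∀ j, g j (t j) = θ j := fun j => Complex.ext rfl (by simpa using w5 j)
  have e0 : ∀ j, γ (t j) = A (θ j) := fun j => by rw [w4 j _ (w2 j), hθ]
  obtain ⟨ε, e1, e2⟩ : ∃ ε : Fin n → ℝ, (∀ j, ε j = 1 ∨ ε j = -1) ∧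
      ∀ j, 0 < ε j * (deriv (g j) (t j)).im := by
    refine ⟨fun j => if 0 < (deriv (g j) (t j)).im then 1 else -1, fun j => ?_, fun j => ?_⟩
    · dsimp only; split_ifs <;> simp
    · dsimp only
      split_ifs with a
      · simpa using a
      · simpa using lt_of_le_of_ne (not_lt.1 a) (w6 j)
  have e3 : ∀ j, (ε j : ℂ) * ε j = 1 := fun j => by rcases e1 j with a | a <;> simp [a]
  have e4 : ∀ j, |ε j| = 1 := fun j => by rcases e1 j with a | a <;> simp [a]
  let e : Fin n → ℂ → M := fun j z => A (g j (t j + z.re) + ((-ε j * z.im : ℝ) : ℂ))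
  have hc' : ∀ j, Continuous fun u : ℝ => t j + u := fun j => by fun_prop
  have he : ∀ j, Pm oC o (e j) 0 := fun j => by
    have hb : HasDerivAt (fun r : ℝ => ((-ε j * r : ℝ) : ℂ)) ((-ε j : ℝ) : ℂ) (0 : ℂ).im := by
      simpa using ((hasDerivAt_id (0 : ℝ)).const_mul (-ε j)).ofReal_comp
    refine (hA.1 _).comp (pm_pl (a := fun u => g j (t j + u))
      (b := fun r : ℝ => ((-ε j * r : ℝ) : ℂ)) ((w1 j).preimage (hc' j)) isOpen_univ
      ((w3 j).comp (by fun_prop) fun _ h => h)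
      (ofRealCLM.contDiff.comp (contDiff_const.mul contDiff_id)).contDiffOn
      (by simpa using w2 j) trivial ?_)
    rw [hb.deriv, deriv_comp_const_add]
    simpa [dd] using e2 j
  have hθ' : ∀ i j, ∀ m : ℤ, θ i = θ j + m → i = j := fun i j m a => by
    obtain ⟨k, hk⟩ := (h.inj (t j) (t i)).1 (by rw [e0, e0, a]; push_cast; rw [hA.per])
    exact ht _ _ _ hk
  obtain ⟨B, b1, b2, b3, b4⟩ := exists_an h hU hr ht he fun j => by
    filter_upwards [((w1 j).preimage (hc' j)).mem_nhds (x := 0) (by simpa using w2 j)] with u hu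
    simp [e, w4 j _ hu]
  obtain ⟨A', a1, a2, a3, a4⟩ := exists_an (e := fun j w => e j (0 + -(ε j * I) * w)) hA.cv hU hc
    hθ' (fun j => Pm.comp (g := e j) (by simpa using he j) (pm_affine (a := -(ε j * I)) (by
      rcases e1 j with a | a <;> simp [a]) 0 0)) fun j => Eventually.of_forall fun u => by
      simp only [e]
      congr 1
      have : ε j * (ε j * u) = u := by rcases e1 j with a | a <;> simp [a]
      simp [hθ, this]
  have box : ∀ᶠ z in 𝓝 (0 : ℂ), ∀ j, B (t j + z) = A' (θ j + ε j * I * z) :=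
    eventually_all.2 fun j => by
      have c : Tendsto (fun z : ℂ => ε j * I * z) (𝓝 0) (𝓝 0) :=
        (by fun_prop : Continuous fun z : ℂ => ε j * I * z).tendsto' _ _ (by simp)
      filter_upwards [b4 j, c.eventually (a4 j)] with z p q
      rw [p, q]
      congr 1
      linear_combination ((ε j : ℂ) * ε j * z) * I_mul_I - z * e3 j
  obtain ⟨δ₀, p0, q0⟩ := Metric.eventually_nhds_iff_ball.1 box
  have box' : ∀ j (z : ℂ), |z.re| < δ₀ / 2 → |z.im| < δ₀ / 2 →
      B (t j + z) = A' (θ j + ε j * I * z) := fun j z p q =>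
    q0 z (mem_ball_zero_iff.2 ((norm_le_abs_re_add_abs_im z).trans_lt (by linarith))) j
  obtain ⟨δ₁, p1, q1⟩ := tube2
    (P := fun z w => A' z = B w → ∃ j, ∃ m : ℤ, |w.re - t j - m| < δ₀ / 2)
    (fun z w k m a b => by
      obtain ⟨j, l, hl⟩ := a (by rw [a1.per, b1.per, b])
      refine ⟨j, l - m, ?_⟩
      convert hl using 2
      simp; ring)
    fun s u => by
      by_cases a : A' s = B u
      · obtain ⟨j, m, rfl⟩ := hall u ⟨s, by rw [← b3, ← a, a3]⟩
        have c : Continuous fun p : ℂ × ℂ => |p.2.re - t j - m| := by fun_prop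
        filter_upwards [(c.tendsto' _ 0 (by simp)).eventually (gt_mem_nhds (half_pos p0))]
          with p hp _ using ⟨j, m, hp⟩
      · have c : Continuous fun p : ℂ × ℂ => (A' p.1, B p.2) :=
          ((cont_of_pm a1.1).comp continuous_fst).prodMk ((cont_of_pm b1.1).comp continuous_snd)
        filter_upwards [c.continuousAt.eventually (isClosed_diagonal.isOpen_compl.mem_nhds a)]
          with p b e using (b e).elim
  have sep : ∀ τ : Fin n → ℝ, (∀ i j, ∀ m : ℤ, τ i = τ j + m → i = j) → ∀ᶠ δ in 𝓝 (0 : ℝ),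
      ∀ i j, ∀ m : ℤ, |τ i - τ j - m| < 2 * δ → i = j ∧ m = 0 := fun τ hτ => by
    refine eventually_all.2 fun i => eventually_all.2 fun j => ?_
    by_cases a : i = j
    · subst a
      filter_upwards [gt_mem_nhds (one_half_pos (α := ℝ))] with δ hδ m hm
      refine ⟨rfl, Int.abs_lt_one_iff.1 ?_⟩
      rw [sub_self, zero_sub, abs_neg] at hm
      exact_mod_cast (show |(m : ℝ)| < 1 by linarith)
    · obtain ⟨η, hη, b⟩ := exists_sep (a := τ i - τ j) fun m c => a (hτ i j m (by linarith))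
      filter_upwards [gt_mem_nhds (half_pos hη)] with δ hδ m hm
      linarith [b m]
  obtain ⟨δ, ⟨d1, d2, d3, d4⟩, d5⟩ := ((((sep t ht).and ((sep θ hθ').and
    ((gt_mem_nhds (half_pos p0)).and (gt_mem_nhds p1)))).filter_mono
    (nhdsWithin_le_nhds (s := Ioi 0))).and self_mem_nhdsWithin).exists
  refine ⟨A', B, δ, θ, ε, ⟨a1, b1, a2, b2, d5, e1, fun j z p q => box' j z (p.trans d3) (q.trans d3),
    fun z w p q a => ?_, d1, d2⟩, a3, b3⟩
  obtain ⟨j, m, hm⟩ := q1 z w (p.trans d4) (q.trans d4) a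
  refine ⟨j, m, ?_⟩
  have b := box' j (w - t j - m) (by simpa using hm) (by simpa using q.trans d3)
  rw [show t j + (w - t j - m) = w + (-m : ℤ) by push_cast; ring, b1.per, ← a] at b
  have c := a1.im_eq b
  rw [c] at p
  simpa [abs_mul, e4] using p

end

theorem nf0 : Nf0 := fun _ _ _ _ hA h hδ => by
  obtain ⟨r, h1, h2⟩ := exists_shift hA h.sm hδ
  exact ⟨r, h1, h2, (tv_finite (hA.shift _) h.sm.continuous h2 (isCompact_Icc (a := 0) (b := 1))).subset
    fun _ ht => ⟨Ico_subset_Icc_self ht.1, ht.2⟩⟩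

theorem nf1 : Nf1 := fun _ _ _ _ _ _ hU hA hc h hr ht hT hall => exists_nf hU hA hc h hr ht hT hall

end Crest.Agent.X212.Tub3
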