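import Crest.Agent.X212.Tub3.Loc

/-!
# Row 212, PERF (helper3): TUB, annulus chart of a closed curve prescribed near finitely many points
-/

set_option autoImplicit false
set_option linter.unusedSectionVars false
noncomputable section
open Set Filter Topology Function Complex
open scoped ContDiff Manifold
open Crest.Agent.X212.Prf6

namespace Crest.Agent.X212.Tub3

section
variable {M : Type*} [TopologicalSpace M] [ChartedSpace ℂ M] [IsManifold IC ∞ M] [T2Space M]
  {o : Or M} {γ : ℝ → M}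

/-- a field that is smooth on `O` -/
def SmOn (V : (x : M) → TangentSpace IC x) (O : Set M) : Prop :=
  ContMDiffOn IC IC.tangent ∞ (fun x => (⟨x, V x⟩ : TangentBundle IC M)) O

/-- local push-forward of a plane field through a chart -/
theorem exists_push_loc {e : ℂ → M} {z : ℂ} (he : IsLocalDiffeomorphAt IC IC ∞ e z) {W : ℂ → ℂ}
    (hW : ContDiff ℝ ∞ W) : ∃ V : (x : M) → TangentSpace IC x, (∃ O ∈ 𝓝 (e z), SmOn V O) ∧
      ∀ᶠ w in 𝓝 z, V (e w) = df e w (W w) := by
  obtain ⟨Φ, hz, hΦ⟩ := he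
  have hs : ContMDiffOn IC IC ∞ e Φ.source := Φ.contMDiffOn_toFun.congr hΦ
  have ht : e z ∈ Φ.target := by rw [hΦ hz]; exact Φ.map_source hz
  refine ⟨fun y => df e (Φ.invFun y) (W (Φ.invFun y)), ⟨_, Φ.open_target.mem_nhds ht, ?_⟩, ?_⟩
  · have h1 := hs.contMDiffOn_tangentMapWithin (m := ∞) (by simp) Φ.open_source.uniqueMDiffOn
    have h2 := (h1.comp (s := Φ.source) (Flo26.smV_model.2 hW).contMDiffOn fun _ h => h).comp
      Φ.contMDiffOn_invFun fun _ h => Φ.map_target h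
    refine h2.congr fun y hy => ?_
    have h4 : e (Φ.invFun y) = y := (hΦ (Φ.map_target hy)).trans (Φ.right_inv hy)
    simp only [comp, tangentMapWithin]
    rw [mfderivWithin_of_isOpen (x := Φ.invFun y) Φ.open_source (Φ.map_target hy)]
    exact congrArg (fun x => (⟨x, df e (Φ.invFun y) (W (Φ.invFun y))⟩ : TangentBundle IC M)) h4.symm
  · filter_upwards [Φ.open_source.mem_nhds hz] with w hw
    have : Φ.invFun (e w) = w := by rw [hΦ hw]; exact Φ.left_inv hw
    simp only [this]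

/-- `w` is positively transverse to the curve at `x` -/
def Tr (o : Or M) (γ : ℝ → M) (x : M) (w : ℂ) : Prop := ∀ s, γ s = x → 0 < o.s x * dd (vel γ s) w

theorem convex_tr (x : M) : Convex ℝ {w : ℂ | Tr o γ x w} := by
  intro a ha b hb p q hp hq h s hs
  have h1 := ha s hs
  have h2 := hb s hs
  have : o.s x * dd (vel γ s) (p • a + q • b) =
      p * (o.s x * dd (vel γ s) a) + q * (o.s x * dd (vel γ s) b) := by simp [dd]; ring
  rw [this]
  rcases hp.eq_or_lt with rfl | hp'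
  · rw [zero_add] at h; subst h; simpa using h2
  · positivity

theorem vel_adapted (h : ContMDiff IR IC ∞ γ) {e : ℂ → M} {t u : ℝ}
    (he : MDifferentiableAt IC IC e u) (hγ : ∀ᶠ u : ℝ in 𝓝 u, e u = γ (t + u)) :
    vel γ (t + u) = df e u 1 := by
  rw [← vel_shift (h.mdifferentiableAt (by simp)), ← vel_congr hγ]
  exact vel_comp (c := fun r : ℝ => (r : ℂ)) he ofRealCLM.hasDerivAt

/-- the vertical field of an adapted chart -/
theorem exists_vert (h : Cv γ) {e : ℂ → M} {t : ℝ} (he : Pm oC o e 0)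
    (hγ : ∀ᶠ u : ℝ in 𝓝 0, e u = γ (t + u)) : ∃ V : (x : M) → TangentSpace IC x,
      (∃ O ∈ 𝓝 (γ t), SmOn V O ∧ ∀ y ∈ O, Tr o γ y (V y)) ∧ ∀ᶠ w in 𝓝 0, V (e w) = df e w I := by
  obtain ⟨V, ⟨O, hO, h1⟩, h2⟩ := exists_push_loc he.1 (W := fun _ => I) contDiff_const
  have e0 : e 0 = γ t := by simpa using hγ.self_of_nhds
  have hW : {s | 0 < o.s (γ s) * dd (vel γ s) (V (γ s))} ∈ 𝓝 t := by
    have c : Tendsto (fun u : ℝ => (u : ℂ)) (𝓝 0) (𝓝 0) := continuous_ofReal.tendsto' _ _ rfl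
    have h3 : ∀ᶠ u : ℝ in 𝓝 0, 0 < o.s (γ (t + u)) * dd (vel γ (t + u)) (V (γ (t + u))) := by
      filter_upwards [c.eventually he.eventually, c.eventually h2, hγ.eventually_nhds] with u a b d
      rw [vel_adapted h.sm a.mdiff d, ← d.self_of_nhds, b, ← dt_dd]
      simpa [oC] using a.2
    have c2 : Tendsto (fun s : ℝ => s - t) (𝓝 t) (𝓝 0) :=
      (by fun_prop : Continuous fun s : ℝ => s - t).tendsto' _ _ (sub_self t)
    filter_upwards [c2.eventually h3] with s hs
    rwa [add_sub_cancel] at hs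
  refine ⟨V, ⟨_, inter_mem (e0 ▸ hO) (cv_emb h t hW), h1.mono inter_subset_left, ?_⟩, h2⟩
  rintro y ⟨-, hy⟩ s rfl
  obtain ⟨n, hn⟩ := hy s rfl
  rwa [mem_ofPred_eq, cv_vel_per h, cv_per h] at hn

variable [CompactSpace M]

/-- a global field transverse to the curve, vertical in the given charts -/
theorem exists_field (h : Cv γ) {ι : Type*} [Finite ι] {t : ι → ℝ} {e : ι → ℂ → M}
    (ht : ∀ i j, ∀ m : ℤ, t i = t j + m → i = j) (he : ∀ j, Pm oC o (e j) 0)
    (hγ : ∀ j, ∀ᶠ u : ℝ in 𝓝 0, e j u = γ (t j + u)) : ∃ v : (x : M) → TangentSpace IC x,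
      Flo26.SmV IC v ∧ (∀ y, Tr o γ y (v y)) ∧ ∀ j, ∀ᶠ w in 𝓝 0, v (e j w) = df (e j) w I := by
  choose V hV h4 using fun j => exists_vert h (he j) (hγ j)
  choose O h1 h2 h3 using hV
  obtain ⟨D, d1, d2⟩ := (finite_range fun j => γ (t j)).t2_separation
  choose N n1 n2 n3 using fun j => exists_mem_nhds_isClosed_subset
    (inter_mem (interior_mem_nhds.2 (h1 j)) ((d1 (γ (t j))).2.mem_nhds (d1 _).1))
  obtain ⟨v, hv⟩ := exists_contMDiffSection_forall_mem_convex_of_local (n := ⊤) IC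
    (TangentSpace IC (M := M)) (F_fiber := ℂ)
    (fun x => {w : ℂ | Tr o γ x w} ∩ ⋂ j, ⋂ _ : x ∈ N j, {(V j x : ℂ)})
    (fun x => (convex_tr x).inter (convex_iInter fun j => convex_iInter fun _ => convex_singleton _))
    fun x => by
      by_cases hx : ∃ j, x ∈ interior (O j) ∩ D (γ (t j))
      · obtain ⟨j, hj⟩ := hx
        refine ⟨_, (isOpen_interior.inter (d1 _).2).mem_nhds hj, V j,
          (h2 j).mono (inter_subset_left.trans interior_subset), fun y hy =>
          ⟨h3 j y (interior_subset hy.1), mem_iInter₂.2 fun i hi => ?_⟩⟩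
        have : γ (t i) = γ (t j) := by_contra fun hn =>
          disjoint_left.1 (d2 ⟨i, rfl⟩ ⟨j, rfl⟩ hn) (n3 i hi).2 hy.2
        obtain ⟨m, hm⟩ := (h.inj _ _).1 this
        rw [ht _ _ _ hm]; rfl
      · have hn : (⋃ j, N j)ᶜ ∈ 𝓝 x := (isClosed_iUnion_of_finite n2).isOpen_compl.mem_nhds
          fun hm => by
            obtain ⟨j, hj⟩ := mem_iUnion.1 hm
            exact hx ⟨j, n3 j hj⟩
        obtain ⟨V', O', a1, a2, a3⟩ : ∃ V' : (x : M) → TangentSpace IC x, ∃ O' ∈ 𝓝 x,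
            SmOn V' O' ∧ ∀ y ∈ O', Tr o γ y (V' y) := by
          by_cases hr : x ∈ range γ
          · obtain ⟨s, rfl⟩ := hr
            obtain ⟨e', b1, b2⟩ := exists_adapted o h.sm (h.imm s)
            obtain ⟨V', b3, -⟩ := exists_vert h b1 b2
            exact ⟨V', b3⟩
          · exact ⟨fun _ => 0, _, (cv_compact h).isClosed.isOpen_compl.mem_nhds hr,
              (Flo26.SmV.zero (I := IC)).contMDiffOn, fun y hy s hs => (hy ⟨s, hs⟩).elim⟩
        exact ⟨_, inter_mem a1 hn, V', a2.mono inter_subset_left, fun y hy =>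
          ⟨a3 y hy.1, mem_iInter₂.2 fun i hi => (hy.2 (mem_iUnion.2 ⟨i, hi⟩)).elim⟩⟩
  refine ⟨v, v.contMDiff, fun y => (hv y).1, fun j => ?_⟩
  have e0 : e j 0 = γ (t j) := by simpa using (hγ j).self_of_nhds
  filter_upwards [h4 j, (he j).1.contMDiffAt.continuousAt.eventually (e0 ▸ n1 j)] with w a b
  rw [← a]
  exact mem_iInter₂.1 (hv _).2 j b

/-- vertical lines of a chart are flow lines -/
theorem fl_vert {v : (x : M) → TangentSpace IC x} (hv : Flo26.SmV IC v) {e : ℂ → M}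
    (he : IsLocalDiffeomorphAt IC IC ∞ e 0) (h : ∀ᶠ w in 𝓝 0, v (e w) = df e w I) :
    ∀ᶠ z in 𝓝 0, Flo26.fl v z.im (e z.re) = e z := by
  obtain ⟨δ, hδ, h1⟩ := Metric.eventually_nhds_iff_ball.1 ((ld_eventually he).and h)
  filter_upwards [Metric.ball_mem_nhds 0 hδ] with z hz
  have := (Flo26.fl_of_curve hv (γ := fun r : ℝ => e (z.re + r * I)) (T := z.im) fun s hs => by
    have c : Continuous fun r : ℝ => (z.re + r * I : ℂ) := by fun_prop
    have hm : (z.re + s * I : ℂ) ∈ Metric.ball (0 : ℂ) δ := by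
      rw [mem_ball_zero_iff] at hz ⊢
      refine lt_of_le_of_lt ?_ hz
      have h2 : s ^ 2 ≤ z.im ^ 2 := sq_le_sq.2 (by simpa using abs_sub_left_of_mem_uIcc hs)
      rw [← sq_le_sq₀ (norm_nonneg _) (norm_nonneg _), Complex.sq_norm, Complex.sq_norm]
      simp [normSq_apply]; nlinarith
    filter_upwards [c.continuousAt.eventually (Metric.isOpen_ball.mem_nhds hm)] with r hr
    rw [(h1 _ hr).2]
    refine hasMFDerivAt_comp (c := fun r : ℝ => (z.re + r * I : ℂ))
      ((h1 _ hr).1.contMDiffAt.mdifferentiableAt (by simp)) ?_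
    simpa using ((ofRealCLM.hasDerivAt (x := r)).mul_const I).const_add (z.re : ℂ)).2
  simpa using this

theorem exists_an (h : Cv γ) {U : Set M} (hU : IsOpen U) (hr : range γ ⊆ U) {ι : Type*} [Finite ι]
    {t : ι → ℝ} {e : ι → ℂ → M} (ht : ∀ i j, ∀ m : ℤ, t i = t j + m → i = j)
    (he : ∀ j, Pm oC o (e j) 0) (hγ : ∀ j, ∀ᶠ u : ℝ in 𝓝 0, e j u = γ (t j + u)) :
    ∃ A, An o A ∧ range A ⊆ U ∧ (∀ s : ℝ, A s = γ s) ∧
      ∀ j, ∀ᶠ z in 𝓝 0, A (t j + z) = e j z := by
  obtain ⟨v, hv, h1, h2⟩ := exists_field h ht he hγ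
  have hc : Flo26.Cpl v := Flo26.complete_of_compactSpace hv
  let A : ℂ → M := fun z => Flo26.fl v z.im (γ z.re)
  have hA : ContMDiff IC IC ∞ A := (hc.contMDiff hv).comp (f := fun z : ℂ => (z.im, γ z.re))
    (imCLM.contDiff.contMDiff.prodMk (h.sm.comp reCLM.contDiff.contMDiff))
  have h0 : ∀ s : ℝ, A s = γ s := fun s => by simp [A, Flo26.fl_zero hv]
  have hp : ∀ s : ℝ, Pm oC o A s := fun s => by
    have d : MDifferentiableAt IC IC A s := hA.mdifferentiableAt (by simp)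
    have d1 : df A s 1 = vel γ s := by
      rw [← vel_comp (c := fun r : ℝ => (r : ℂ)) (c' := 1) d ofRealCLM.hasDerivAt]
      exact vel_congr (Eventually.of_forall h0)
    have d2 : df A s I = v (γ s) := by
      have a := vel_comp (f := A) (c := fun r : ℝ => (s + r * I : ℂ)) (c' := I) (t := 0)
        (hA.mdifferentiableAt (by simp))
        (by simpa using ((ofRealCLM.hasDerivAt (x := (0 : ℝ))).mul_const I).const_add (s : ℂ))
      have b := vel_of_has (Flo26.hasMFDerivAt_fl hv (hc (0, γ s)))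
      simp only [ofReal_zero, zero_mul, add_zero] at a
      rw [← a, vel_congr (γ' := fun r => Flo26.fl v r (γ s))
        (Eventually.of_forall fun r => by simp [A]), b, Flo26.fl_zero hv]
    have k : 0 < o.s (A s) * dt A s := by rw [dt_dd, d1, d2, h0]; exact h1 _ s rfl
    exact ⟨ld_of_dt isOpen_univ (mem_univ _) hA.contMDiffOn (right_ne_zero_of_mul k.ne'),
      by simpa [oC] using k⟩
  obtain ⟨B, b1, b2, δ, hδ, b3⟩ := an_of_thin hU hp (fun z n => by simp [A, cv_per h])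
    (fun s t e => (h.inj _ _).1 (by rwa [h0, h0] at e)) fun s => hr ⟨s, (h0 s).symm⟩
  refine ⟨B, b1, b2, fun s => (b3 _ (by simpa using hδ)).trans (h0 s), fun j => ?_⟩
  have c1 : Tendsto re (𝓝 (0 : ℂ)) (𝓝 0) := continuous_re.tendsto' _ _ rfl
  have c2 : Tendsto (fun z : ℂ => |z.im|) (𝓝 0) (𝓝 0) :=
    (by fun_prop : Continuous fun z : ℂ => |z.im|).tendsto' _ _ (by simp)
  filter_upwards [fl_vert hv (he j).1 (h2 j), c1.eventually (hγ j),
    c2.eventually (gt_mem_nhds hδ)] with z a b c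
  rw [b3 _ (by simpa using c), ← a, b]
  simp [A]

end

theorem tub : Tub := fun _ _ _ _ _ _ h hU hr ht he hγ => exists_an h hU hr ht he hγ

end Crest.Agent.X212.Tub3
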