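import Crest.Agent.X212.Prf6.Tr
import Crest.Agent.X212.Cyl58.Int

/-!
# Row 212, PERF (helper3): local tools for curves on surfaces

Lifts of a curve through a chart, adapted charts, tube lemmas for periodic properties, an annulus
chart from a thin one.
-/

set_option autoImplicit false
set_option linter.unusedSectionVars false
noncomputable section
open Set Filter Topology Function Complex
open scoped ContDiff Manifold
open Crest.Agent.X212.Prf6

namespace Crest.Agent.X212.Tub3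

/-! ### periodic properties near the real axis -/

theorem tube2 {P : ℂ → ℂ → Prop} (hp : ∀ (z w : ℂ) (n m : ℤ), P (z + n) (w + m) → P z w)
    (h : ∀ s t : ℝ, ∀ᶠ p : ℂ × ℂ in 𝓝 ((s : ℂ), (t : ℂ)), P p.1 p.2) :
    ∃ δ > (0 : ℝ), ∀ z w : ℂ, |z.im| < δ → |w.im| < δ → P z w := by
  have hK : IsCompact (Icc (0 : ℝ) 1 ×ˢ Icc (0 : ℝ) 1) := isCompact_Icc.prod isCompact_Icc
  have h1 := hK.eventually_forall_of_forall_eventually (x₀ := ((0 : ℝ), (0 : ℝ)))
    (P := fun x y => P (y.1 + x.1 * I) (y.2 + x.2 * I)) fun y _ => by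
      have hc : Continuous fun q : (ℝ × ℝ) × ℝ × ℝ =>
          (((q.2.1 + q.1.1 * I : ℂ)), ((q.2.2 + q.1.2 * I : ℂ))) := by fun_prop
      refine (hc.tendsto' ((0, 0), y) ((y.1 : ℂ), (y.2 : ℂ)) (by simp)).eventually (h y.1 y.2)
  obtain ⟨δ, hδ, h2⟩ := Metric.eventually_nhds_iff.1 h1
  refine ⟨δ, hδ, fun z w hz hw => hp z w (-⌊z.re⌋) (-⌊w.re⌋) ?_⟩
  have h3 := h2 (y := (z.im, w.im)) (by
    rw [Prod.dist_eq, Real.dist_eq, Real.dist_eq, sub_zero, sub_zero]; exact max_lt hz hw)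
    (Int.fract z.re, Int.fract w.re) ⟨⟨Int.fract_nonneg _, (Int.fract_lt_one _).le⟩,
      ⟨Int.fract_nonneg _, (Int.fract_lt_one _).le⟩⟩
  have e : ∀ z : ℂ, z + (-⌊z.re⌋ : ℤ) = (Int.fract z.re : ℝ) + z.im * I := fun z =>
    Complex.ext (by simp [Int.fract, sub_eq_add_neg]) (by simp)
  rw [e z, e w]
  exact h3

theorem tube1 {P : ℂ → Prop} (hp : ∀ (z : ℂ) (n : ℤ), P (z + n) → P z)
    (h : ∀ s : ℝ, ∀ᶠ z in 𝓝 (s : ℂ), P z) : ∃ δ > (0 : ℝ), ∀ z : ℂ, |z.im| < δ → P z := by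
  obtain ⟨δ, hδ, h1⟩ := tube2 (P := fun z _ => P z) (fun z _ n _ => hp z n)
    fun s t => continuous_fst.continuousAt.eventually (h s)
  exact ⟨δ, hδ, fun z hz => h1 z z hz hz⟩

/-- distance to the integers -/
theorem exists_sep {a : ℝ} (h : ∀ m : ℤ, a ≠ m) : ∃ η > (0 : ℝ), ∀ m : ℤ, η ≤ |a - m| := by
  have hc : IsClosed (range ((↑) : ℤ → ℝ)) := Int.isClosedEmbedding_coe_real.isClosed_range
  obtain ⟨η, hη, h1⟩ := Metric.isOpen_iff.1 hc.isOpen_compl a fun ⟨m, hm⟩ => h m hm.symm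
  refine ⟨η, hη, fun m => not_lt.1 fun hm => h1 (a := m) ?_ ⟨m, rfl⟩⟩
  rwa [Metric.mem_ball, dist_comm, Real.dist_eq]

/-- a squeeze of the line -/
theorem exists_squeeze {ε : ℝ} (hε : 0 < ε) :
    ∃ ρ : ℝ → ℝ, Cyl58.Up ρ univ ∧ (∀ x, |ρ x| < ε) ∧ ∀ x, |x| ≤ ε / 2 → ρ x = x := by
  obtain ⟨l, h1, h2, h3⟩ := Cyl58.exists_up_Iio (a := ε / 2) (b := ε) (by linarith)
  have hl : ∀ x, l x < ε := fun x => by
    have : l x ∈ range l := ⟨x, rfl⟩
    rwa [h3] at this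
  refine ⟨l ∘ fun x => -l (-x), h1.comp (h1.neg.mono fun _ _ => trivial) (mapsTo_univ _ _),
    fun x => abs_lt.2 ⟨?_, hl _⟩, fun x hx => ?_⟩
  · rcases le_total (-l (-x)) (ε / 2) with h | h
    · rw [comp_apply, h2 _ h]; linarith [hl (-x)]
    · have := h1.strictMono.monotone h
      rw [h2 _ le_rfl] at this
      simp only [comp_apply]; linarith
  · have := abs_le.1 hx
    rw [comp_apply, h2 (-x) (by linarith), neg_neg, h2 x this.2]

theorem hasFDerivAt_pl {a b : ℝ → ℂ} {a' b' z : ℂ} (ha : HasDerivAt a a' z.re)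
    (hb : HasDerivAt b b' z.im) : HasFDerivAt (fun w : ℂ => a w.re + b w.im)
      (reCLM.smulRight a' + imCLM.smulRight b') z :=
  (ha.hasFDerivAt.comp z reCLM.hasFDerivAt).add (hb.hasFDerivAt.comp z imCLM.hasFDerivAt)

/-- the planar determinant -/
def dd (a b : ℂ) : ℝ := a.re * b.im - b.re * a.im

/-- translation surfaces `a (re) + b (im)` are positive -/
theorem pm_pl {a b : ℝ → ℂ} {s t : Set ℝ} (hs : IsOpen s) (ht : IsOpen t)
    (ha : ContDiffOn ℝ ∞ a s) (hb : ContDiffOn ℝ ∞ b t) {z : ℂ} (h1 : z.re ∈ s) (h2 : z.im ∈ t)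
    (h : 0 < dd (deriv a z.re) (deriv b z.im)) : Pm oC oC (fun w : ℂ => a w.re + b w.im) z := by
  refine pm_C (s := re ⁻¹' s ∩ im ⁻¹' t)
    ((hs.preimage continuous_re).inter (ht.preimage continuous_im)) ⟨h1, h2⟩
    ((ha.comp reCLM.contDiff.contDiffOn fun _ h => h.1).add
      (hb.comp imCLM.contDiff.contDiffOn fun _ h => h.2)) ?_
  rw [(hasFDerivAt_pl ((ha.contDiffAt (hs.mem_nhds h1)).differentiableAt (by simp)).hasDerivAt
    ((hb.contDiffAt (ht.mem_nhds h2)).differentiableAt (by simp)).hasDerivAt).fderiv, det_C]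
  simpa [dd] using h

section
variable {M : Type*} [TopologicalSpace M] [ChartedSpace ℂ M] [IsManifold IC ∞ M] [T2Space M]
  {o : Or M} {γ : ℝ → M}

/-- velocity of a curve -/
def vel (γ : ℝ → M) (t : ℝ) : ℂ := mfderiv IR IC γ t (1 : ℝ)

/-- the differential as a map of `ℂ` -/
def df (f : ℂ → M) (z : ℂ) : ℂ →L[ℝ] ℂ := mfderiv IC IC f z

theorem dt_dd (f : ℂ → M) (z : ℂ) : dt f z = dd (df f z 1) (df f z I) := det_C _

theorem vel_congr {γ' : ℝ → M} {t : ℝ} (h : γ =ᶠ[𝓝 t] γ') : vel γ t = vel γ' t :=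
  congrArg (fun L : ℝ →L[ℝ] ℂ => L 1) (h.mfderiv_eq (I := IR) (I' := IC))

theorem hasMFDerivAt_comp {f : ℂ → M} {c : ℝ → ℂ} {c' : ℂ} {t : ℝ}
    (hf : MDifferentiableAt IC IC f (c t)) (hc : HasDerivAt c c' t) :
    HasMFDerivAt IR IC (fun s => f (c s)) t
      ((1 : ℝ →L[ℝ] ℝ).smulRight (show TangentSpace IC (f (c t)) from df f (c t) c')) := by
  refine (hf.hasMFDerivAt.comp t (hasMFDerivAt_iff_hasFDerivAt.2 hc.hasFDerivAt)).congr_mfderiv ?_
  refine ContinuousLinearMap.ext_ring ?_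
  change df f (c t) ((1 : ℝ) • c') = (1 : ℝ) • df f (c t) c'
  rw [one_smul, one_smul]

theorem vel_of_has {t : ℝ} {v : ℂ} (h : HasMFDerivAt IR IC γ t
    ((1 : ℝ →L[ℝ] ℝ).smulRight (show TangentSpace IC (γ t) from v))) : vel γ t = v := by
  unfold vel
  rw [h.mfderiv]
  exact one_smul ℝ v

theorem vel_comp {f : ℂ → M} {c : ℝ → ℂ} {c' : ℂ} {t : ℝ}
    (hf : MDifferentiableAt IC IC f (c t)) (hc : HasDerivAt c c' t) :
    vel (fun s => f (c s)) t = df f (c t) c' := vel_of_has (hasMFDerivAt_comp hf hc)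

theorem vel_shift {t a : ℝ} (h : MDifferentiableAt IR IC γ (a + t)) :
    vel (fun s => γ (a + s)) t = vel γ (a + t) := by
  have h1 : HasMFDerivAt IR IR (fun s : ℝ => a + s) t (ContinuousLinearMap.id ℝ ℝ) :=
    hasMFDerivAt_iff_hasFDerivAt.2 ((hasFDerivAt_id t).const_add a)
  exact congrArg (fun L : ℝ →L[ℝ] ℂ => L 1) (h.hasMFDerivAt.comp t h1).mfderiv

theorem cv_per (h : Cv γ) (s : ℝ) (n : ℤ) : γ (s + n) = γ s := ((h.inj _ _).2 ⟨n, rfl⟩).symm

theorem cv_vel_per (h : Cv γ) (s : ℝ) (n : ℤ) : vel γ (s + n) = vel γ s := by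
  rw [add_comm, ← vel_shift (h.sm.mdifferentiableAt (by simp))]
  exact vel_congr (Eventually.of_forall fun u => (congrArg γ (add_comm _ _)).trans (cv_per h u n))

theorem cv_range (h : Cv γ) : range γ = γ '' Icc 0 1 := by
  refine Subset.antisymm ?_ (image_subset_range _ _)
  rintro _ ⟨s, rfl⟩
  refine ⟨Int.fract s, ⟨Int.fract_nonneg _, (Int.fract_lt_one _).le⟩, ?_⟩
  rw [← cv_per h _ ⌊s⌋, Int.fract_add_floor]

theorem cv_compact (h : Cv γ) : IsCompact (range γ) :=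
  cv_range h ▸ isCompact_Icc.image h.sm.continuous

/-- a closed curve is embedded -/
theorem cv_emb (h : Cv γ) (s : ℝ) {W : Set ℝ} (hW : W ∈ 𝓝 s) :
    ∀ᶠ y in 𝓝 (γ s), ∀ u, γ u = y → ∃ n : ℤ, u + n ∈ W := by
  have hK : IsCompact (Icc (s - 1 / 2) (s + 1 / 2) \ interior W) :=
    isCompact_Icc.diff isOpen_interior
  have hc := (hK.image h.sm.continuous).isClosed.isOpen_compl
  have hn : γ s ∈ (γ '' (Icc (s - 1 / 2) (s + 1 / 2) \ interior W))ᶜ := ?_
  · filter_upwards [hc.mem_nhds hn] with y hy u hu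
    refine ⟨-⌊u - s + 1 / 2⌋, interior_subset (by_contra fun hn => hy ⟨_, ⟨?_, hn⟩, ?_⟩)⟩
    · have h1 := Int.floor_le (u - s + 1 / 2)
      have h2 := Int.lt_floor_add_one (u - s + 1 / 2)
      push_cast
      constructor <;> linarith
    · rw [cv_per h, hu]
  · rintro ⟨u, ⟨h1, h2⟩, e⟩
    obtain ⟨n, rfl⟩ := (h.inj _ _).1 e.symm
    have h3 : (n : ℝ) < 1 := by linarith [h1.2]
    have h4 : (-1 : ℝ) < n := by linarith [h1.1]
    have h5 : n = 0 := by
      have : n < 1 := by exact_mod_cast h3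
      have : -1 < n := by exact_mod_cast h4
      omega
    subst h5
    exact h2 (by simpa using mem_interior_iff_mem_nhds.2 hW)

theorem ld_injOn {N : Type*} [TopologicalSpace N] [ChartedSpace ℂ N] {f : N → M} {x : N}
    (h : IsLocalDiffeomorphAt IC IC ∞ f x) : ∃ O ∈ 𝓝 x, InjOn f O := by
  obtain ⟨Φ, hx, hΦ⟩ := h
  exact ⟨_, Φ.open_source.mem_nhds hx, Φ.injOn.congr hΦ.symm⟩

/-- lift of a curve through a chart, on an open set -/
theorem exists_lift {e : ℂ → M} {z : ℂ} (he : IsLocalDiffeomorphAt IC IC ∞ e z)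
    (hγ : ContMDiff IR IC ∞ γ) {t : ℝ} (ht : γ t = e z) :
    ∃ (g : ℝ → ℂ) (W : Set ℝ), IsOpen W ∧ t ∈ W ∧ ContDiffOn ℝ ∞ g W ∧ g t = z ∧
      (∀ s ∈ W, γ s = e (g s)) ∧ vel γ t = df e z (deriv g t) := by
  obtain ⟨Φ, hz, hΦ⟩ := id he
  have hW : IsOpen (γ ⁻¹' Φ.target) := Φ.open_target.preimage hγ.continuous
  have htW : t ∈ γ ⁻¹' Φ.target := by
    rw [mem_preimage, ht, hΦ hz]; exact Φ.map_source hz
  have hg : ContDiffOn ℝ ∞ (fun s => Φ.invFun (γ s)) (γ ⁻¹' Φ.target) :=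
    contMDiffOn_iff_contDiffOn.1 (Φ.contMDiffOn_invFun.comp hγ.contMDiffOn fun _ h => h)
  have h0 : Φ.invFun (γ t) = z := by rw [ht, hΦ hz]; exact Φ.left_inv hz
  have h1 : ∀ s ∈ γ ⁻¹' Φ.target, γ s = e (Φ.invFun (γ s)) := fun s hs =>
    ((hΦ (Φ.map_target hs)).trans (Φ.right_inv hs)).symm
  refine ⟨_, _, hW, htW, hg, h0, h1, ?_⟩
  rw [vel_congr (eventually_of_mem (hW.mem_nhds htW) h1), vel_comp (c := fun s => Φ.invFun (γ s))
    (by rw [h0]; exact he.contMDiffAt.mdifferentiableAt (by simp))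
    ((hg.contDiffAt (hW.mem_nhds htW)).differentiableAt (by simp)).hasDerivAt, h0]

/-- a positive chart in which the curve is the real axis -/
theorem exists_adapted (o : Or M) (hs : ContMDiff IR IC ∞ γ) {t : ℝ} (hv : vel γ t ≠ 0) :
    ∃ e : ℂ → M, Pm oC o e 0 ∧ ∀ᶠ u : ℝ in 𝓝 0, e u = γ (t + u) := by
  obtain ⟨e, he, h0⟩ := exists_pm o (γ t)
  obtain ⟨g, W, hW, ht, hg, g0, h1, h2⟩ := exists_lift he.1 hs h0.symm
  have hd : deriv g t ≠ 0 := fun h => hv (by rw [h2, h, map_zero])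
  have hc : Continuous fun u : ℝ => t + u := by fun_prop
  have ha : ContDiffOn ℝ ∞ (fun u => g (t + u)) ((fun u => t + u) ⁻¹' W) :=
    hg.comp (by fun_prop) fun _ h => h
  have hb : HasDerivAt (fun r : ℝ => (r : ℂ) * (I * deriv g t)) (I * deriv g t) (0 : ℂ).im := by
    simpa using (ofRealCLM.hasDerivAt (x := (0 : ℝ))).mul_const (I * deriv g t)
  have hk := pm_pl (b := fun r : ℝ => (r : ℂ) * (I * deriv g t)) (hW.preimage hc) isOpen_univ ha
    (ofRealCLM.contDiff.mul contDiff_const).contDiffOn (z := 0) (by simpa using ht) trivial (by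
      rw [hb.deriv, deriv_comp_const_add]
      simpa [dd, normSq_apply] using normSq_pos.2 hd)
  refine ⟨_, Pm.comp (by simpa [g0] using he) hk, ?_⟩
  filter_upwards [(hW.preimage hc).mem_nhds (x := 0) (by simpa using ht)] with u hu
  simp [h1 _ hu]

/-- an annulus chart from a thin one -/
theorem an_of_thin {A : ℂ → M} {U : Set M} (hU : IsOpen U) (h1 : ∀ s : ℝ, Pm oC o A s)
    (h2 : ∀ z, ∀ n : ℤ, A (z + n) = A z) (h3 : ∀ s t : ℝ, A s = A t → ∃ n : ℤ, t = s + n)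
    (h4 : ∀ s : ℝ, A s ∈ U) :
    ∃ B, An o B ∧ range B ⊆ U ∧ ∃ δ > (0 : ℝ), ∀ z : ℂ, |z.im| < δ → B z = A z := by
  have hc : ∀ s : ℝ, ContinuousAt A s := fun s => (h1 s).1.contMDiffAt.continuousAt
  obtain ⟨δ₁, p1, a1⟩ := tube1 (P := fun z => Pm oC o A z ∧ A z ∈ U) (fun z n h => ⟨by
    have := Pm.comp (g := A) (by simpa [add_comm] using h.1) (pm_affine one_ne_zero (n : ℂ) z)
    exact this.congr (Eventually.of_forall fun w => by simp [add_comm, h2]), h2 z n ▸ h.2⟩)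
    fun s => (h1 s).eventually.and ((hc s).eventually (hU.mem_nhds (h4 s)))
  obtain ⟨δ₂, p2, a2⟩ := tube2 (P := fun z w => A z = A w → ∃ n : ℤ, w = z + n)
    (fun z w n m h e => by
      obtain ⟨k, hk⟩ := h (by rw [h2, h2, e])
      exact ⟨n + k - m, by push_cast; linear_combination hk⟩)
    fun s t => by
      by_cases e : A s = A t
      · obtain ⟨n, rfl⟩ := h3 s t e
        obtain ⟨O, hO, hi⟩ := ld_injOn (h1 s).1
        have c2 : Tendsto (fun p : ℂ × ℂ => p.2 - n) (𝓝 ((s : ℂ), ((s + n : ℝ) : ℂ))) (𝓝 s) :=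
          (by fun_prop : Continuous fun p : ℂ × ℂ => p.2 - n).tendsto' _ _ (by simp)
        filter_upwards [continuous_fst.continuousAt.eventually hO, c2.eventually hO] with p b1 b2 e
        refine ⟨n, ?_⟩
        have := hi b1 b2 (by rw [← h2 (p.2 - n) n, sub_add_cancel, e])
        linear_combination -this
      · have c1 : ContinuousAt (fun p : ℂ × ℂ => (A p.1, A p.2)) ((s : ℂ), (t : ℂ)) :=
          (ContinuousAt.comp (f := Prod.fst) (hc s) continuousAt_fst).prodMk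
            (ContinuousAt.comp (f := Prod.snd) (hc t) continuousAt_snd)
        filter_upwards [c1.eventually (isClosed_diagonal.isOpen_compl.mem_nhds e)] with p b e
        exact (b e).elim
  obtain ⟨ρ, r1, r2, r3⟩ := exists_squeeze (lt_min p1 p2)
  let k : ℂ → ℂ := fun w => (w.re : ℂ) + (ρ w.im : ℂ) * I
  have k1 : ∀ w, (k w).im = ρ w.im := fun w => by simp [k]
  have k2 : ∀ w, (k w).re = w.re := fun w => by simp [k]
  have hk : ∀ z, Pm oC oC k z := fun z => by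
    have hb : HasDerivAt (fun r => (ρ r : ℂ) * I) ((deriv ρ z.im : ℝ) * I) z.im :=
      (r1.hasDerivAt (mem_univ _)).ofReal_comp.mul_const I
    have ha : HasDerivAt (fun r : ℝ => (r : ℂ)) 1 z.re := ofRealCLM.hasDerivAt
    refine pm_pl (a := fun r : ℝ => (r : ℂ)) (b := fun r => (ρ r : ℂ) * I) isOpen_univ isOpen_univ
      ofRealCLM.contDiff.contDiffOn
      ((ofRealCLM.contDiff.comp r1.contDiff).mul contDiff_const).contDiffOn trivial trivial ?_
    rw [ha.deriv, hb.deriv]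
    simpa [dd] using (r1 _ trivial).2
  have b1 : ∀ w, |(k w).im| < δ₁ := fun w => by rw [k1]; exact (r2 _).trans_le (min_le_left _ _)
  have b2 : ∀ w, |(k w).im| < δ₂ := fun w => by rw [k1]; exact (r2 _).trans_le (min_le_right _ _)
  refine ⟨A ∘ k, ⟨fun z => (a1 _ (b1 z)).1.comp (hk z), fun z w => ⟨fun e => ?_, ?_⟩⟩, ?_,
    min δ₁ δ₂ / 2, half_pos (lt_min p1 p2), fun z hz => ?_⟩
  · obtain ⟨n, hn⟩ := a2 _ _ (b2 z) (b2 w) e
    refine ⟨n, Complex.ext ?_ (r1.strictMono.injective ?_)⟩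
    · simpa [k2] using congrArg re hn
    · simpa [k1] using congrArg im hn
  · rintro ⟨n, rfl⟩
    rw [comp_apply, comp_apply, ← h2 (k z) n]
    exact congrArg A (Complex.ext (by simp [k2]) (by simp [k1]))
  · rintro _ ⟨z, rfl⟩
    exact (a1 _ (b1 z)).2
  · exact congrArg A (Complex.ext (k2 z) ((k1 z).trans (r3 _ hz.le)))

end

end Crest.Agent.X212.Tub3
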